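import Vale.Agent.P046.Full.Flow.Base

/-!
Propagation of the truncation gap.

The difference of the two truncations obeys an exact linear recursion whose weights only involve
the exact solution `qf`.
-/

namespace Vale.Agent.P046.Full

open Finset

noncomputable section

variable {α : Type*} [DecidableEq α] {E : Finset (Finset α)} {M : ℕ}

/-- Decrease of a product against the decrease of a larger product. -/
lemma prod_drop {ι : Type*} [DecidableEq ι] (s : Finset ι) (a a' b b' δ : ι → ℝ)
    (ha' : ∀ i ∈ s, 0 ≤ a' i) (haa : ∀ i ∈ s, a' i ≤ a i) (hab : ∀ i ∈ s, a i ≤ b i)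
    (hab' : ∀ i ∈ s, a' i ≤ b' i) (hbb : ∀ i ∈ s, b' i ≤ b i) (hδ0 : ∀ i ∈ s, 0 ≤ δ i)
    (hδ : ∀ i ∈ s, (a i - a' i) - (b i - b' i) ≤ δ i) :
    ((∏ i ∈ s, a i) - ∏ i ∈ s, a' i) - ((∏ i ∈ s, b i) - ∏ i ∈ s, b' i)
      ≤ ∑ i ∈ s, δ i * ∏ k ∈ s.erase i, a k := by
  induction s using Finset.induction_on with
  | empty => simp
  | @insert x s hx ih =>
    have hm : ∀ i ∈ s, i ∈ insert x s := fun i => mem_insert_of_mem
    have h := ih (fun i hi => ha' i (hm i hi)) (fun i hi => haa i (hm i hi))
      (fun i hi => hab i (hm i hi)) (fun i hi => hab' i (hm i hi)) (fun i hi => hbb i (hm i hi))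
      (fun i hi => hδ0 i (hm i hi)) (fun i hi => hδ i (hm i hi))
    have hsum : ∑ i ∈ insert x s, δ i * ∏ k ∈ (insert x s).erase i, a k
        = δ x * ∏ k ∈ s, a k + a x * ∑ i ∈ s, δ i * ∏ k ∈ s.erase i, a k := by
      rw [sum_insert hx, erase_insert hx, mul_sum]
      congr 1
      refine sum_congr rfl fun i hi => ?_
      rw [erase_insert_of_ne (fun e => hx (by rw [e]; exact hi)),
        prod_insert fun e => hx (mem_of_mem_erase e)]
      ring
    rw [hsum, prod_insert hx, prod_insert hx, prod_insert hx, prod_insert hx]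
    have x0 := ha' x (mem_insert_self x s)
    have x1 := haa x (mem_insert_self x s)
    have x2 := hab' x (mem_insert_self x s)
    have x3 := hbb x (mem_insert_self x s)
    have x4 := hδ x (mem_insert_self x s)
    have hd := hδ0 x (mem_insert_self x s)
    have pa : 0 ≤ ∏ i ∈ s, a i := prod_nonneg fun i hi =>
      (ha' i (hm i hi)).trans (haa i (hm i hi))
    have pab : ∏ i ∈ s, a i ≤ ∏ i ∈ s, b i :=
      prod_le_prod (fun i hi => (ha' i (hm i hi)).trans (haa i (hm i hi))) fun i hi => hab i (hm i hi)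
    have pbb : ∏ i ∈ s, b' i ≤ ∏ i ∈ s, b i :=
      prod_le_prod (fun i hi => (ha' i (hm i hi)).trans (hab' i (hm i hi))) fun i hi => hbb i (hm i hi)
    have hS : 0 ≤ ∑ i ∈ s, δ i * ∏ k ∈ s.erase i, a k := sum_nonneg fun i hi =>
      mul_nonneg (hδ0 i (hm i hi)) (prod_nonneg fun k hk =>
        (ha' k (hm k (mem_of_mem_erase hk))).trans (haa k (hm k (mem_of_mem_erase hk))))
    set A := ∏ i ∈ s, a i
    set A' := ∏ i ∈ s, a' i
    set B := ∏ i ∈ s, b i
    set B' := ∏ i ∈ s, b' i
    set S := ∑ i ∈ s, δ i * ∏ k ∈ s.erase i, a k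
    -- split both decreases as `(x - x') * P + x' * (P - P')`
    have e1 : (a x - a' x) * A - (b x - b' x) * B ≤ δ x * A := by
      have h1 : (b x - b' x) * A ≤ (b x - b' x) * B :=
        mul_le_mul_of_nonneg_left pab (by linarith)
      have h2 : ((a x - a' x) - (b x - b' x)) * A ≤ δ x * A := mul_le_mul_of_nonneg_right x4 pa
      linarith
    have e2 : a' x * (A - A') - b' x * (B - B') ≤ a x * S := by
      have h1 : a' x * (B - B') ≤ b' x * (B - B') := mul_le_mul_of_nonneg_right x2 (by linarith)
      have h2 : a' x * ((A - A') - (B - B')) ≤ a' x * S := mul_le_mul_of_nonneg_left h x0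
      have h3 : a' x * S ≤ a x * S := mul_le_mul_of_nonneg_right x1 hS
      linarith
    linarith

/-! ### Notation for the recursion -/

/-- The hyperedges at `e` other than `X`. -/
def nb (E : Finset (Finset α)) (X : Finset α) (e : α) : Finset (Finset α) :=
  (E.erase X).filter fun R => e ∈ R

/-- The rate with which `R` covers `e` at time `l`, in a truncation. -/
def pr (E : Finset (Finset α)) (M : ℕ) (base : Bool) (j : ℕ) (R : Finset α) (e : α) (l : ℕ) : ℝ :=
  ∏ f ∈ R.erase e, bp E M base j R f l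

/-- The probability that `R` covers `e` before time `i`, in a truncation. -/
def acc (E : Finset (Finset α)) (M : ℕ) (base : Bool) (j : ℕ) (R : Finset α) (e : α) (i : ℕ) : ℝ :=
  (∑ l ∈ range i, pr E M base j R e l) / M

/-- The exact recursion with one further hyperedge `R` excluded. -/
def exX (E : Finset (Finset α)) (M : ℕ) (X R : Finset α) (e : α) (i : ℕ) : ℝ :=
  ∏ Q ∈ (nb E X e).erase R, (1 - accum E M Q e i)

/-- The parity of the upper truncation. -/
def bb : ℕ → Bool
  | 0 => true
  | j + 1 => !bb j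

lemma bp_succ (base : Bool) (j : ℕ) (X : Finset α) (e : α) (i : ℕ) :
    bp E M base (j + 1) X e i = ∏ R ∈ nb E X e, (1 - acc E M base j R e i) := rfl

lemma bb_two : ∀ j, bb (2 * j) = true
  | 0 => rfl
  | j + 1 => by simp only [Nat.mul_succ, bb, Bool.not_not]; exact bb_two j

lemma pr_mem (base : Bool) (j : ℕ) (R : Finset α) (e : α) {l : ℕ} (hl : l ≤ M) :
    0 ≤ pr E M base j R e l ∧ pr E M base j R e l ≤ 1 :=
  ⟨prod_nonneg fun f _ => (bp_mem_unit E M base j R f l hl).1,
    prod_le_one (fun f _ => (bp_mem_unit E M base j R f l hl).1)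
      fun f _ => (bp_mem_unit E M base j R f l hl).2⟩

lemma acc_mem (base : Bool) (j : ℕ) (R : Finset α) (e : α) {i : ℕ} (hi : i ≤ M) :
    0 ≤ acc E M base j R e i ∧ acc E M base j R e i ≤ 1 := by
  have h0 : 0 ≤ ∑ l ∈ range i, pr E M base j R e l :=
    sum_nonneg fun l hl => (pr_mem base j R e ((mem_range.1 hl).trans_le hi).le).1
  refine ⟨div_nonneg h0 (Nat.cast_nonneg' _), div_le_one_of_le₀ ?_ (Nat.cast_nonneg' _)⟩
  calc _ ≤ ∑ l ∈ range i, (1 : ℝ) :=
        sum_le_sum fun l hl => (pr_mem base j R e ((mem_range.1 hl).trans_le hi).le).2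
    _ ≤ M := by simp; exact hi

lemma acc_add (base : Bool) (j : ℕ) (R : Finset α) (e : α) (i : ℕ) :
    acc E M base j R e (i + 1) = acc E M base j R e i + pr E M base j R e i / M := by
  simp only [acc, sum_range_succ, add_div]

/-- The exact solution lies between the two truncations. -/
lemma sandwich : ∀ (j : ℕ) (X : Finset α) (e : α) (i : ℕ), i ≤ M →
    bp E M (!bb j) j X e i ≤ qf E M X e i ∧ qf E M X e i ≤ bp E M (bb j) j X e i := by
  intro j
  induction j with
  | zero =>
    intro X e i hi
    have := qf_mem_unit (M := M) E X e hi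
    exact ⟨by simpa [bp, bb] using this.1, by simpa [bp, bb] using this.2⟩
  | succ j ih =>
    intro X e i hi
    rw [qf_eq E X e hi, bp_succ, bp_succ]
    simp only [bb, Bool.not_not]
    have hacc : ∀ R, acc E M (!bb j) j R e i ≤ accum E M R e i ∧
        accum E M R e i ≤ acc E M (bb j) j R e i := fun R =>
      ⟨div_le_div_of_nonneg_right (sum_le_sum fun l hl =>
          prod_le_prod (fun f _ => (bp_mem_unit E M _ j R f l ((mem_range.1 hl).trans_le hi).le).1)
            fun f _ => (ih R f l ((mem_range.1 hl).trans_le hi).le).1) (Nat.cast_nonneg' _),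
        div_le_div_of_nonneg_right (sum_le_sum fun l hl =>
          prod_le_prod (fun f _ => (qf_mem_unit E R f ((mem_range.1 hl).trans_le hi).le).1)
            fun f _ => (ih R f l ((mem_range.1 hl).trans_le hi).le).2) (Nat.cast_nonneg' _)⟩
    constructor <;> refine prod_le_prod (fun R _ => ?_) fun R _ => ?_
    · linarith [(acc_mem (E := E) (bb j) j R e hi).2]
    · linarith [(hacc R).2]
    · linarith [accum_le_one (M := M) E R e hi]
    · linarith [(hacc R).1]

/-- The width of the rates at depth `j`. -/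
def width (E : Finset (Finset α)) (M j : ℕ) (R : Finset α) (e : α) (l : ℕ) : ℝ :=
  pr E M (bb j) j R e l - pr E M (!bb j) j R e l

lemma width_nonneg (j : ℕ) (R : Finset α) (e : α) {l : ℕ} (hl : l ≤ M) :
    0 ≤ width E M j R e l :=
  sub_nonneg.2 (prod_le_prod (fun f _ => (bp_mem_unit E M _ j R f l hl).1)
    fun f _ => (sandwich j R f l hl).1.trans (sandwich j R f l hl).2)

lemma width_le_pr (j : ℕ) (R : Finset α) (e : α) {l : ℕ} (hl : l ≤ M) :
    width E M j R e l ≤ pr E M (bb j) j R e l := by
  unfold width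
  linarith [(pr_mem (E := E) (!bb j) j R e hl).1]

lemma width_le_one (j : ℕ) (R : Finset α) (e : α) {l : ℕ} (hl : l ≤ M) :
    width E M j R e l ≤ 1 :=
  (width_le_pr j R e hl).trans (pr_mem (E := E) (bb j) j R e hl).2

lemma exX_nonneg (X R : Finset α) (e : α) {i : ℕ} (hi : i ≤ M) : 0 ≤ exX E M X R e i :=
  prod_nonneg fun Q _ => by linarith [accum_le_one (M := M) E Q e hi]

/-- Truncations decrease in time. -/
lemma bp_antitone (base : Bool) (j : ℕ) (X : Finset α) (e : α) {i : ℕ} (hi : i < M) :
    bp E M base j X e (i + 1) ≤ bp E M base j X e i := by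
  rcases j with _ | j
  · exact le_rfl
  rw [bp_succ, bp_succ]
  refine prod_le_prod (fun R _ => ?_) fun R _ => ?_
  · linarith [(acc_mem (E := E) base j R e (Nat.succ_le_of_lt hi)).2]
  · rw [acc_add]
    linarith [div_nonneg (pr_mem (E := E) base j R e hi.le).1 (Nat.cast_nonneg' M : (0:ℝ) ≤ M)]

lemma bp_le_of_le (base : Bool) (j : ℕ) (X : Finset α) (e : α) {i l : ℕ} (hil : i ≤ l)
    (hl : l ≤ M) : bp E M base j X e l ≤ bp E M base j X e i := by
  induction hil with
  | refl => exact le_rfl
  | step _ ih => exact (bp_antitone base j X e hl).trans (ih (Nat.le_of_succ_le hl))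

/-- One unit of time of the gap at depth `j + 1`. -/
lemma gap_inc (j : ℕ) (X : Finset α) (e : α) {i : ℕ} (hi : i < M) :
    (bp E M (!bb (j + 1)) (j + 1) X e i - bp E M (!bb (j + 1)) (j + 1) X e (i + 1))
      - (bp E M (bb (j + 1)) (j + 1) X e i - bp E M (bb (j + 1)) (j + 1) X e (i + 1))
      ≤ (∑ R ∈ nb E X e, exX E M X R e i * width E M j R e i) / M := by
  simp only [bb, Bool.not_not, bp_succ]
  have hacc : ∀ R, ∀ l ≤ M, acc E M (!bb j) j R e l ≤ acc E M (bb j) j R e l := fun R l hl =>
    div_le_div_of_nonneg_right (sum_le_sum fun k hk => sub_nonneg.1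
      (width_nonneg j R e ((mem_range.1 hk).trans_le hl).le)) (Nat.cast_nonneg' _)
  have hM : (0 : ℝ) ≤ M := Nat.cast_nonneg' _
  refine (prod_drop (nb E X e) _ _ _ _ (fun R => width E M j R e i / (M : ℝ))
    (fun R _ => ?_) (fun R _ => ?_) (fun R _ => ?_) (fun R _ => ?_) (fun R _ => ?_)
    (fun R _ => div_nonneg (width_nonneg j R e hi.le) hM) (fun R _ => ?_)).trans ?_
  · linarith [(acc_mem (E := E) (bb j) j R e (Nat.succ_le_of_lt hi)).2]
  · rw [acc_add]; linarith [div_nonneg (pr_mem (E := E) (bb j) j R e hi.le).1 hM]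
  · linarith [hacc R i hi.le]
  · linarith [hacc R (i + 1) (Nat.succ_le_of_lt hi)]
  · rw [acc_add]; linarith [div_nonneg (pr_mem (E := E) (!bb j) j R e hi.le).1 hM]
  · rw [acc_add, acc_add, width, sub_div]; linarith
  rw [sum_div]
  refine sum_le_sum fun R _ => ?_
  rw [mul_comm (exX E M X R e i), mul_div_right_comm]
  refine mul_le_mul_of_nonneg_left (prod_le_prod (fun Q _ => ?_) fun Q _ => ?_)
    (div_nonneg (width_nonneg j R e hi.le) hM)
  · linarith [(acc_mem (E := E) (bb j) j Q e hi.le).2]
  · have h : accum E M Q e i ≤ acc E M (bb j) j Q e i :=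
      div_le_div_of_nonneg_right (sum_le_sum fun l hl =>
        prod_le_prod (fun f _ => (qf_mem_unit E Q f ((mem_range.1 hl).trans hi).le).1)
          fun f _ => (sandwich j Q f l ((mem_range.1 hl).trans hi).le).2) hM
    linarith

/-- The gap at a root, in terms of the widths one level down. -/
lemma gap_root (j : ℕ) (X : Finset α) (e : α) : ∀ i ≤ M,
    bp E M (bb (j + 1)) (j + 1) X e i - bp E M (!bb (j + 1)) (j + 1) X e i
      ≤ (∑ l ∈ range i, ∑ R ∈ nb E X e, exX E M X R e l * width E M j R e l) / M := by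
  intro i
  induction i with
  | zero => intro _; simp [bp_succ, acc]
  | succ i ih =>
    intro hi
    have h1 := ih (Nat.le_of_succ_le hi)
    have h2 := gap_inc (E := E) j X e (Nat.lt_of_succ_le hi)
    rw [sum_range_succ, add_div]
    linarith

/-- The linear operator propagating widths: the weights only involve the exact solution. -/
def gapOp (E : Finset (Finset α)) (M : ℕ) (φ : Finset α → α → ℕ → ℝ) (R : Finset α) (e : α)
    (i : ℕ) : ℝ :=
  (∑ l ∈ range i, ∑ f ∈ R.erase e, (∏ g ∈ (R.erase e).erase f, qf E M R g l)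
    * ∑ Q ∈ nb E R f, exX E M R Q f l * φ Q f l) / M

/-- The propagation step. -/
lemma width_step {V : Finset α} (hlin : Lin V E) (j : ℕ) {R : Finset α} (hR : R ∈ E) {e : α}
    (he : e ∈ R) : ∀ i ≤ M, width E M (j + 1) R e i ≤ gapOp E M (width E M j) R e i := by
  obtain ⟨f, g, hfg, hset⟩ := card_eq_two.1
    (by rw [card_erase_of_mem he, hlin.three R hR] : (R.erase e).card = 2)
  intro i
  induction i with
  | zero => intro _; simp [width, pr, bp_succ, acc, gapOp]
  | succ i ih =>
    intro hi
    have hi' : i < M := Nat.lt_of_succ_le hi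
    have hmain := ih hi'.le
    have hop : gapOp E M (width E M j) R e (i + 1) = gapOp E M (width E M j) R e i
        + (qf E M R g i * (∑ Q ∈ nb E R f, exX E M R Q f i * width E M j Q f i)
          + qf E M R f i * (∑ Q ∈ nb E R g, exX E M R Q g i * width E M j Q g i)) / M := by
      simp only [gapOp, sum_range_succ, add_div]
      congr 1
      rw [hset, sum_pair hfg, erase_insert (by simpa using hfg), prod_singleton, pair_comm,
        erase_insert (by simpa using hfg.symm), prod_singleton, add_div]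
    rw [hop]
    have hwid : ∀ l, width E M (j + 1) R e l
        = bp E M (bb (j + 1)) (j + 1) R f l * bp E M (bb (j + 1)) (j + 1) R g l
          - bp E M (!bb (j + 1)) (j + 1) R f l * bp E M (!bb (j + 1)) (j + 1) R g l := by
      intro l
      simp only [width, pr, hset, prod_pair hfg]
    rw [hwid] at hmain ⊢
    set hb := bb (j + 1) with hhb
    have f1 := gap_inc (E := E) j R f hi'
    have g1 := gap_inc (E := E) j R g hi'
    rw [← hhb] at f1 g1
    have sf := sandwich (E := E) (j + 1) R f (i + 1) hi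
    have sg := sandwich (E := E) (j + 1) R g i hi'.le
    have sf0 := sandwich (E := E) (j + 1) R f i hi'.le
    rw [← hhb] at sf sg sf0
    have lg := bp_mem_unit E M (!hb) (j + 1) R g i hi'.le
    have lf := bp_mem_unit E M (!hb) (j + 1) R f (i + 1) hi
    have df1 := bp_antitone (E := E) (!hb) (j + 1) R f hi'
    have df2 := bp_antitone (E := E) hb (j + 1) R f hi'
    have dg2 := bp_antitone (E := E) hb (j + 1) R g hi'
    set a := bp E M hb (j + 1) R f i
    set b := bp E M hb (j + 1) R g i
    set c := bp E M (!hb) (j + 1) R f i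
    set d := bp E M (!hb) (j + 1) R g i
    set a' := bp E M hb (j + 1) R f (i + 1)
    set b' := bp E M hb (j + 1) R g (i + 1)
    set c' := bp E M (!hb) (j + 1) R f (i + 1)
    set d' := bp E M (!hb) (j + 1) R g (i + 1)
    set A := (∑ Q ∈ nb E R f, exX E M R Q f i * width E M j Q f i) with hA
    set B := (∑ Q ∈ nb E R g, exX E M R Q g i * width E M j Q g i) with hB
    have hA0 : 0 ≤ A / M := div_nonneg (sum_nonneg fun Q _ =>
      mul_nonneg (exX_nonneg R Q f hi'.le) (width_nonneg j Q f hi'.le)) (Nat.cast_nonneg' _)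
    have hB0 : 0 ≤ B / M := div_nonneg (sum_nonneg fun Q _ =>
      mul_nonneg (exX_nonneg R Q g hi'.le) (width_nonneg j Q g hi'.le)) (Nat.cast_nonneg' _)
    have e1 : d * ((c - c') - (a - a')) ≤ qf E M R g i * (A / M) :=
      (mul_le_mul_of_nonneg_left f1 lg.1).trans (mul_le_mul_of_nonneg_right sg.1 hA0)
    have e2 : c' * ((d - d') - (b - b')) ≤ qf E M R f i * (B / M) :=
      (mul_le_mul_of_nonneg_left g1 lf.1).trans
        (mul_le_mul_of_nonneg_right (df1.trans sf0.1) hB0)
    have e3 : (a - a') * d ≤ (a - a') * b :=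
      mul_le_mul_of_nonneg_left (sg.1.trans sg.2) (by linarith)
    have e4 : c' * (b - b') ≤ a' * (b - b') :=
      mul_le_mul_of_nonneg_right (sf.1.trans sf.2) (by linarith)
    linear_combination hmain + e1 + e2 + e3 + e4

end

end Vale.Agent.P046.Full
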